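import Vale.Agent.P281Z.B3.Defs
import Vale.Agent.P281Z.Lf.Bert

/-!
# P281Z, block B3: the theorem of Bertini with a transversal base locus
-/

open scoped Manifold ContDiff Topology
open Set Filter Function MeasureTheory
open Vale.Agent.P272.K Vale.Agent.P285.H281.FD
open Vale.Agent.P277Z (Hol at_chart hol_const)
open Vale.Agent.P277Z.Slc (Ind LEq Snc IsDiv dd dd_mul dd_congr ind_iff_surj)
open Vale.Agent.P281Z.Lf.Bt

noncomputable section

namespace Vale.Agent.P281Z.B3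

namespace BtH

variable {n : ℕ} {X : Type} [TopologicalSpace X] [ChartedSpace (Cm n) X]
  [IsManifold 𝓘(ℂ, Cm n) ω X] {y : X} {e : Chart n X}

omit [IsManifold 𝓘(ℂ, Cm n) ω X] in
theorem dd_lin {ι : Type} [Fintype ι] {u : ι → X → ℂ} (hu : ∀ a, Hol n (u a) y) (he : At e y)
    (c : ι → ℂ) (v : Cm n) : dd (fun y => ∑ a, c a * u a y) e y v = ∑ a, c a * dd (u a) e y v := by
  have h := HasFDerivAt.fun_sum (u := Finset.univ) fun a _ =>
    (hu a e he).differentiableAt.hasFDerivAt.const_mul (c a)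
  rw [dd, h.fderiv]
  simp [dd]

theorem base {α : Type} [Fintype α] {r : ℕ} {ζ : α → X → ℂ} {u : Fin (r + 1) → X → ℂ}
    (h : Ind n (Sum.elim ζ u) y) {c : Fin (r + 1) → ℂ} (hc : c 0 ≠ 0) :
    Ind n (fun o : Option α => o.elim (fun y => ∑ a, c a * u a y) ζ) y := by
  have he := at_chart (n := n) y
  have hu : ∀ a, Hol n (u a) y := fun a => h.1 (.inr a)
  obtain ⟨v, hv⟩ := (ind_iff_surj _).1 (h.2 _ he) (Sum.elim 0 (Pi.single 0 1))
  refine ind_opt (h.comp .inl Sum.inl_injective)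
    (Hol.sum _ fun a _ => (hol_const _ _).mul (hu a)) he (v := v)
    (fun a => congrFun hv (.inl a)) ?_
  have h1 : ∀ a, dd (u a) _ y v = (Pi.single 0 1 : Fin (r + 1) → ℂ) a :=
    fun a => congrFun hv (.inr a)
  rw [dd_lin hu he]
  simpa [h1, Pi.single_apply] using hc

end BtH

open BtH in
theorem bt : BT := fun n r X κ _ G A al T hA hG hC => by
  choose i hi using hA.cover
  have h0 : ∀ y : X.X, ∃ U ∈ 𝓝 y, y ∉ T → ∀ᵐ c : Fin (r + 1) → ℂ, ∀ z ∈ U,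
      ∑ a, c a * al a (i y) z = 0 → ∃ ζ : κ → X.X → ℂ, (∀ l, LEq n (G l) z (ζ l)) ∧ Ind n (fun
        o : Option {l // z ∈ G l} => o.elim (fun z => ∑ a, c a * al a (i y) z) fun l => ζ l) z :=
    fun y => by
      by_cases h : y ∈ T
      · exact ⟨univ, univ_mem, fun k => (k h).elim⟩
      · obtain ⟨a, ha⟩ := not_forall.1 (mt (hC.zero _ y (hi y)).2 h)
        obtain ⟨U, h1, h2⟩ := loc hG (fun a => sec_hol (hC.sec a) (hi y)) ha
        exact ⟨U, h1, fun _ => h2⟩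
  choose U h2 h3 using h0
  obtain ⟨t, ht, hc, ht'⟩ := TopologicalSpace.countable_cover_nhdsWithin (s := Tᶜ)
    (f := fun x => U x ∩ A.U (i x)) fun x _ =>
      mem_nhdsWithin_of_mem_nhds (inter_mem (h2 x) (lb_near hA (hi x)))
  obtain ⟨c, hc, hc0⟩ := (((ae_ball_iff hc).2 fun y hy => h3 y (ht hy)).and
    (Measure.ae_eval_ne (fun _ : Fin (r + 1) => (volume : Measure ℂ)) 0 0)).exists
  have hσ := sec_sum hC.sec c
  set σ : A.ι → X.X → ℂ := fun i x => ∑ a, c a * al a i x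
  have h4 : ∀ j, ∀ y ∈ A.U j, σ j y = 0 ↔ y ∈ {y | ¬ NZ A σ y} := fun j y hy =>
    ((not_congr (nz_iff hA (fun a b => hσ.change a b y) hy)).trans not_not).symm
  have h5 : ∀ y, ∃ j, y ∈ A.U j ∧ (σ j y = 0 → ∃ ζ : κ → X.X → ℂ, (∀ l, LEq n (G l) y (ζ l)) ∧
      Ind n (fun o : Option {l // y ∈ G l} => o.elim (σ j) fun l => ζ l) y) := fun y => by
    by_cases h : y ∈ T
    · obtain ⟨ζ, k, -⟩ := hG y
      have := Fintype.ofFinite {l // y ∈ G l}
      exact ⟨_, hi y, fun _ => ⟨ζ, k, base (hC.ind _ y (hi y) h ζ k) hc0⟩⟩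
    · obtain ⟨z, a, b⟩ := mem_iUnion₂.1 (ht' h)
      exact ⟨_, b.2, hc z a y b.1⟩
  have h6 : ∀ j, ∀ y ∈ A.U j, LEq n {y | ¬ NZ A σ y} y (σ j) := fun j y hy =>
    ⟨(lb_near hA hy).mono (h4 j), fun e he => ⟨sec_hol hσ hy e he, fun h0 => by
      obtain ⟨j', a, b⟩ := h5 y
      have h0' := (h4 j' y a).2 ((h4 j y hy).1 h0)
      obtain ⟨ζ, -, k⟩ := b h0'
      change dd (σ j) e y ≠ 0
      rw [dd_congr (((lb_near hA hy).and (lb_near hA a)).mono fun z k => hσ.change j j' z k.1 k.2)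
        he, dd_mul (lb_hol hA hy a) (sec_hol hσ a) h0' he]
      exact smul_ne_zero (hA.ne_zero _ _ y hy a) ((k.2 e he).ne_zero none)⟩⟩
  refine ⟨c, _, hc0, ⟨hA, hσ, h6⟩, fun y => ?_⟩
  obtain ⟨j, a, b⟩ := h5 y
  by_cases h0 : σ j y = 0
  · obtain ⟨ζ, k1, k2⟩ := b h0
    refine ⟨fun o => o.elim (σ j) ζ, Option.rec (h6 j y a) k1, ind_sub (k := fun o => o.elim (σ j) ζ)
      k2 (Option.map (·.1)) (Option.rec rfl fun _ => rfl) ?_⟩
    rintro (_ | l) h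
    exacts [⟨none, rfl⟩, ⟨some ⟨l, h⟩, rfl⟩]
  · obtain ⟨ζ, k1, k2⟩ := hG y
    refine ⟨fun o => o.elim (σ j) ζ, Option.rec (h6 j y a) k1, ind_sub (k := fun o => o.elim (σ j) ζ)
      k2 (fun l => some l.1) (fun _ => rfl) ?_⟩
    rintro (_ | l) h
    exacts [(h0 ((h4 j y a).2 h)).elim, ⟨⟨l, h⟩, rfl⟩]

end Vale.Agent.P281Z.B3
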