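import Vale.Agent.P281Z.B3.Defs

/-!
# P281Z, block B3: adjunction
-/

open scoped Manifold ContDiff Topology
open Set Filter Matrix
open Vale.Agent.P272.K Vale.Agent.P285.H281.FD
open Vale.Agent.P277Z (Hol at_chart)
open Vale.Agent.P277Z.Slc (Ind LEq IsDiv dd dd_mul dd_congr)

noncomputable section

namespace Vale.Agent.P281Z.B3

namespace AjH

/-- the identity chart -/
abbrev rf : Chart 1 (Cm 1) := OpenPartialHomeomorph.refl (Cm 1)

theorem at_rf (y : Cm 1) : At rf y := at_chart y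

variable {n d : ℕ} {X F : Type} [TopologicalSpace X] [ChartedSpace (Cm n) X]
  [IsManifold 𝓘(ℂ, Cm n) ω X] [TopologicalSpace F] [ChartedSpace (Cm d) F]
  [IsManifold 𝓘(ℂ, Cm d) ω F] [CompactSpace F] [T2Space X] {Z : Set X} {ζ ξ g : X → ℂ} {i : F → X} {x : F} {y : X}

omit [T2Space X] in
theorem holA (h : Hol n ζ y) : HolA n 1 (fun y _ => ζ y : X → Cm 1) y :=
  .of_hol (continuousAt_pi.2 fun _ => h.cont) (at_rf _) fun _ => h

theorem fibA (hi : Emb d n i Z) (h : LEq n Z (i x) ζ) :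
    FibA n 1 d (fun y _ => ζ y : X → Cm 1) i x := by
  have h0 := h.mem.2 (hi.mem x)
  refine ⟨holA h.hol, hi.hol.at x, (sbm_iff_ind (holA h.hol) (at_rf _)).2
    ⟨fun _ => h.hol, fun e he => linearIndependent_unique_iff.2 ((h.2 e he).2 h0)⟩, hi.imm x, ?_⟩
  filter_upwards [hi.hol.cont.continuousAt.eventually h.1] with z hz
  exact funext fun _ => (hz.2 (hi.mem z)).trans h0.symm

theorem chg (σ : Fin 1 ⊕ Fin d ≃ Fin n) (hi : Emb d n i Z) (h : LEq n Z (i x) ζ)
    (h' : LEq n Z (i x) ξ) (hg : Hol n g (i x)) (k : ∀ᶠ y in 𝓝 (i x), ζ y = g y * ξ y)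
    {c : Chart d F} {e : Chart n X} (hc : At c x) (he : At e (i x)) :
    th σ (fun y _ => ζ y : X → Cm 1) i rf c e x * g (i x) =
      th σ (fun y _ => ξ y : X → Cm 1) i rf c e x := by
  obtain ⟨R, -, h2⟩ := (fibA hi h).linv hc he
  have h3 := (fibA hi h').spec σ hc he (at_rf _) (R x)
  have h4 := (fibA hi h).spec σ hc he (at_rf _) (R x)
  have h5 : dfM (fun y _ => ζ y : X → Cm 1) e rf (i x) =
      (of fun _ _ : Fin 1 => g (i x)) * dfM (fun y _ => ξ y : X → Cm 1) e rf (i x) := by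
    ext a b
    rw [mul_apply, Fin.sum_univ_one, dfM_apply, dfM_apply, df_apply (holA h.hol) he (at_rf _),
      df_apply (holA h'.hol) he (at_rf _)]
    exact DFunLike.congr_fun ((dd_congr k he).trans (dd_mul hg h'.hol (h'.mem.2 (hi.mem x)) he)) _
  rw [h2.self_of_nhds, det_one] at h3 h4
  rw [h5, detR_left, det_unique, of_apply] at h4
  refine mul_left_cancel₀ (left_ne_zero_of_mul_eq_one h3) ?_
  rw [h3, ← h4]
  ring

end AjH

open AjH in
theorem aj : AJ := fun d W A σ Z F i hD hi => by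
  have h := fun a x ha => fibA hi (hD.leq a (i x) ha)
  refine ⟨fun c a => th (sig (add_comm d 1)) (fun y _ => σ a.2 y : W.X → Cm 1) i rf c a.1,
    fun _ a x hc ha => (h _ x ha.2).hol _ hc ha.1 (at_rf _),
    fun _ a x hc ha => (h _ x ha.2).ne _ hc ha.1 (at_rf _), fun c c' a b x hc hc' ha hb => ?_⟩
  show _ * (_ * _) = (jacM c c' x).det * _
  rw [← chg _ hi (hD.leq _ _ ha.2) (hD.leq _ _ hb.2) (lb_hol hD.lb ha.2 hb.2)
    (((lb_near hD.lb ha.2).and (lb_near hD.lb hb.2)).mono fun y k => hD.sec.change _ _ y k.1 k.2)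
    hc' hb.1, ← mul_assoc, ← mul_assoc, ← (h _ x ha.2).chgF _ hc hc' hb.1 (at_rf _),
    ← (h _ x ha.2).chgX _ hc ha.1 hb.1 (at_rf _)]
  rfl

end Vale.Agent.P281Z.B3
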