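import Vale.Agent.P281Z.B3.Defs
import Vale.Agent.P281Z.Lg.Mk
import Vale.Agent.P272.K.Inv.Hess

/-!
# P281Z, block B3: from the statements of the block LG
-/

open scoped Manifold ContDiff Topology ComplexOrder
open Set Filter
open Vale.Agent.P272.K Vale.Agent.P285.H281.FD
open Vale.Agent.P277Z.Slc (Ind LEq Snc IsDiv isLB_can dd dd_congr dd_mul)
open Vale.Agent.P277.HD (pull)

noncomputable section

namespace Vale.Agent.P281Z.B3

namespace Br

variable {n : ℕ} {X : Type} [TopologicalSpace X] [ChartedSpace (Cm n) X]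
  [IsManifold 𝓘(ℂ, Cm n) ω X] {κ : Type} {G : κ → Set X} {x : X} {A : Bd X} {ψ : A.ι → X → ℝ}
  {Z : Set X} {σ : A.ι → X → ℂ}

theorem snc_ind (h : Snc n G) {ζ : κ → X → ℂ} (hζ : ∀ l, LEq n (G l) x (ζ l)) :
    Ind n (fun l : {l // x ∈ G l} => ζ l) x := by
  obtain ⟨ξ, h1, h2⟩ := h x
  choose w w1 w2 w3 using fun l => leq_unit (h1 l) (hζ l)
  refine ⟨fun l => (hζ l).hol, fun e he => ?_⟩
  rw [show (fun l : {l // x ∈ G l} => dd (ζ l) e x) = _ from funext fun l =>
    (dd_congr (w3 l) he).trans (dd_mul (w1 l) (h1 l).hol ((h1 l).mem.2 l.2) he)]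
  exact (h2.2 e he).units_smul fun l => Units.mk0 _ (w2 l)

omit [IsManifold 𝓘(ℂ, Cm n) ω X] in
theorem zeq (h : IsDiv n Z A σ) : {x | ¬ NZ A σ x} = Z := Set.ext fun x =>
  (h.lb.cover x).elim fun a ha => ((not_congr (nz_iff h.lb (fun a b => h.sec.change a b x) ha)).trans
    not_not).trans (h.leq a x ha).mem

omit [IsManifold 𝓘(ℂ, Cm n) ω X] in
theorem hess_eq (hA : IsLB n A) (h : IsMet n A ψ) {e : Chart n X} (he : At e x) {a b : A.ι}
    (ha : x ∈ A.U a) (hb : x ∈ A.U b) :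
    cHess (fun z => ψ a (e.symm z)) (e x) = cHess (fun z => ψ b (e.symm z)) (e x) := by
  have h0 : A.g a b (e.symm (e x)) ≠ 0 := by rw [he.left_inv]; exact hA.ne_zero a b x ha hb
  have h1 := hA.holo a b e x he ha hb
  rw [C2.cHess_congr (at_ev he (((lb_near hA ha).and (lb_near hA hb)).mono fun y k =>
    h.change a b y k.1 k.2)), C2.cHess_add ((h.smooth b e x he hb).of_le (by norm_cast))
    ((((h1.restrict_scalars ℝ).of_le le_top).norm_sq ℝ).log (pow_ne_zero 2 (norm_ne_zero_iff.2 h0))),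
    cHess_log_norm_sq h1 h0, add_zero]

end Br

open Br

theorem b3v_of (h : Lg.StB3V) : B3V := by
  intro d k W κ _ D A ψ σ Z F i u hW hψ hZ hS hi hu
  have hA := hZ.lb
  have hD : Snc (d + 1) D := fun x => (hS x).elim fun ζ k => ⟨fun l => ζ (some l),
    fun l => k.1 (some l), k.2.comp (fun l : {l // x ∈ D l} => ⟨some l.1, l.2⟩) fun _ _ e =>
      Subtype.ext (Option.some.inj (congrArg Subtype.val e))⟩
  have hH : ∀ a (e : Chart (d + 1) W.X) x (c : ℝ), At e x → x ∈ A.U a →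
      cHess (fun z => c * ψ a (e.symm z)) (e x) = (c : ℂ) • cHess (fun z => ψ a (e.symm z)) (e x) :=
    fun a e x c he ha => C2.cHess_const_mul c ((hψ.1.smooth a e x he ha).of_le (by norm_cast))
  have l1 : IsLB (d + 1) (KA (d + 1) A (k + 2)) := lb_mul isLB_can (lb_pow hA _)
  have l2 := lb_mul isLB_can (lb_mul (lb_pow hA (k + 1)) hA)
  obtain ⟨t, ht⟩ : LIso (d + 1) (KA (d + 1) A (k + 2)) _ :=
    liso_of_map' l2 (fun a => (a.1, a.2, a.2)) (fun _ _ h => ⟨h.1, h.2, h.2⟩) fun a b x _ _ =>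
      congrArg (_ * ·) (pow_succ (A.g a.2 b.2 x) (k + 1)).symm
  have ht' : LRel d (pull i (KA (d + 1) A (k + 2)))
      (pull i ((Bd.can (d + 1) W.X).mul ((A.pow (k + 1)).mul A))) fun a b x => t a b (i x) :=
    ⟨fun a b x h1 h2 => hi.hol.hol (ht.hol a b _ h1 h2), fun a b x => ht.ne a b _,
      fun a a' b b' x => ht.chg a a' b b' _⟩
  have hG := (Hyp.of_snc hD).isOpen
  obtain ⟨s, k1, k2⟩ := h d W F κ D (A.pow (k + 1)) A (fun a x => ((k + 1 : ℕ) : ℝ) * ψ a x) ψ σ i hW hD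
    (lb_pow hA _) hA ⟨fun a e x he ha => contDiffAt_const.mul (hψ.1.smooth a e x he ha),
      fun a b x ha hb => by
        change _ = _ + Real.log (‖A.g a b x ^ (k + 1)‖ ^ 2)
        rw [hψ.1.change a b x ha hb, norm_pow, ← pow_mul, mul_comm (k + 1) 2, pow_mul,
          Real.log_pow _ (k + 1), mul_add]⟩ hψ.1
    (fun a e x he ha => by
      rw [hH a e x _ he ha]
      exact (hψ.2 a e x he ha).smul (Complex.zero_le_real.2 (Nat.cast_nonneg _)))
    ⟨1, fun a b e x he ha hb => by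
      rw [hH a e x _ he ha, hess_eq hA hψ.1 he hb ha, Complex.ofReal_one, one_smul, Nat.cast_succ,
        Complex.ofReal_add, add_smul, Complex.ofReal_one, one_smul, add_sub_cancel_right]
      exact (hψ.2 a e x he ha).smul (Complex.zero_le_real.2 (Nat.cast_nonneg _))⟩ hZ.sec
    (fun a x ha h0 ζ hζ => by
      have h1 := (snc_ind hS (ζ := fun o => o.elim (σ a) ζ) (Option.rec (hZ.leq a x ha) hζ)).comp
        (Sum.elim (fun l : {l // x ∈ D l} => ⟨some l.1, l.2⟩) fun _ : Unit =>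
          ⟨none, (hZ.leq a x ha).mem.1 h0⟩) (by
          rintro (l | l) (l' | l') e
          exacts [congrArg _ (Subtype.ext (Option.some.inj (congrArg Subtype.val e))),
            (nomatch congrArg Subtype.val e), (nomatch congrArg Subtype.val e), rfl])
      exact ind_congr h1 (Sum.rec (fun _ => .of_forall fun _ => rfl) fun _ => .of_forall fun _ => rfl))
    (zeq hZ ▸ hi) _ (ht'.symm.secP (hi.hol.lb l2) (hi.hol.lb l1) isOpen_univ
      (hG.preimage hi.hol.cont) hu)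
  refine ⟨_, ht.secP l1 l2 isOpen_univ hG k1, fun a x h1 h2 => ?_⟩
  obtain ⟨b, hb⟩ := l2.cover (i x)
  rw [LRel.map_eq l1 l2 ht (fun b b' => (k1.chg b b' _ trivial · · h1)) h2 hb, k2 b x h1 hb,
    LRel.map_eq (hi.hol.lb l2) (hi.hol.lb l1) ht'.symm (fun b b' => (hu.chg b b' x trivial · · h1))
      hb h2, mul_inv_cancel_left₀ (ht.ne _ _ _ h2 hb)]

end Vale.Agent.P281Z.B3
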