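import Vale.Agent.P281Z.B3.Defs
import Vale.Agent.P281Z.Lf.Pull

/-!
# P281Z, block B3: restriction to a member of the system
-/

open scoped Manifold ContDiff Topology
open Set Filter
open Vale.Agent.P272.K Vale.Agent.P285.H281.FD
open Vale.Agent.P277Z (Hol at_chart)
open Vale.Agent.P277Z.Slc (Ind LEq Snc dd ind_iff_surj)

noncomputable section

namespace Vale.Agent.P281Z.B3

theorem cut : CUT := by
  intro d r W κ _ D A al T c Z F i hC h0 hZ hS hi
  classical
  have h1 : ∀ a, ∀ y ∈ A.U a, y ∈ Z ↔ ∑ j, c j * al j a y = 0 := fun a y b => (hZ.leq a y b).mem.symm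
  refine ⟨fun y a => ?_, fun j => hi.hol.sec (hC.sec _), fun a x b =>
    (hC.zero a (i x) b).trans ⟨fun k j => k _, fun k => Fin.forall_fin_succ.2 ⟨?_, k⟩⟩,
    fun a x b k ζ' hζ' => ?_⟩
  · obtain ⟨b, k⟩ := hZ.lb.cover y
    exact (h1 b y k).2 (by simp [(hC.zero b y k).1 a])
  · simpa [Fin.sum_univ_succ, k, h0] using (h1 a (i x) b).1 (hi.mem x)
  obtain ⟨ξ, h2, h3, -⟩ := Lf.Pl.loc hS hi x
  have h4 := hC.ind a (i x) b k ξ h2
  choose u u1 u2 u3 using fun l => leq_unit (h3 l) (hζ' l)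
  have he := at_chart (n := d + 1) (i x)
  have h5 := hZ.leq a (i x) b
  refine ⟨Sum.rec (fun l => (hζ' l).hol) fun j => hi.hol.hol (h4.1 (.inr j.succ)),
    fun e hc => (ind_iff_surj _).2 fun w => ?_⟩
  obtain ⟨v, hv⟩ := (ind_iff_surj _).1 (h4.2 _ he) (Sum.elim (fun l => w (.inl l) / u l x)
    (Fin.cons (-(∑ j : Fin r, c j.succ * w (.inr j)) / c 0) fun j => w (.inr j)))
  have h6 : ∀ j, dd (al j a) _ (i x) v = _ := fun j => congrFun hv (.inr j)
  obtain ⟨t, rfl⟩ := ((hi.tan (h := fun (_ : Unit) y => ∑ j, c j * al j a y) ⟨fun _ => h5.hol,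
    fun e he => linearIndependent_unique_iff.2 ((h5.2 e he).2 (h5.mem.2 (hi.mem x)))⟩
    (h5.1.mono fun z a => a.symm.trans (forall_const Unit).symm)).2 e _ hc he v).1 fun _ => by
      refine (DFunLike.congr_fun (HasFDerivAt.fun_sum fun j _ =>
        ((h4.1 (.inr j) _ he).differentiableAt.hasFDerivAt.const_mul (c j))).fderiv v).trans ?_
      change (∑ j, c j • dd (al j a) _ (i x)) v = 0
      simp only [sum_apply, smul_apply, h6]
      simp [Fin.sum_univ_succ, mul_div_cancel₀ _ h0]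
  refine ⟨t, funext (Sum.rec (fun l => ?_) fun j => (DFunLike.congr_fun
    (dd_comp (h4.1 (.inr j.succ)) (hi.hol.at x) hc he) t).trans (h6 j.succ))⟩
  change dd (ζ' l) e x t = _
  rw [P277Z.Slc.dd_congr (u3 l) hc, P277Z.Slc.dd_mul (u1 l) (h3 l).hol ((h3 l).mem.2 l.2) hc,
    dd_comp (h2 l).hol (hi.hol.at x) hc he]
  exact (congrArg (u l x * ·) (congrFun hv (.inl l))).trans (mul_div_cancel₀ _ (u2 l))

end Vale.Agent.P281Z.B3
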