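import Vale.Agent.P281Z.B3.Defs
import Vale.Agent.P281Z.Lf.Pull
import Vale.Agent.P281Z.Pb.Api

/-!
# P281Z, block B3: the hyperplanes through a point
-/

open scoped Manifold ContDiff Topology ComplexOrder
open Set Filter
open Vale.Agent.P272.K Vale.Agent.P285.H281.FD
open Vale.Agent.P277Z (Hol at_chart hol_const)
open Vale.Agent.P277Z.Slc (Ind LEq Snc dd dd_congr dd_mul dd_sub_const ind_iff_surj)
open Vale.Agent.P277.HD (pull)
open Vale.Agent.P284Z (levi cHess_quad)

noncomputable section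

namespace Vale.Agent.P281Z.B3

theorem py1 (n r : ℕ) (W : Mf n) (κ : Type) [Fintype κ] (D : κ → Set W.X) (S : PS r)
    (f : W.X → S.P.X) (y : S.P.X) (hf : HolM n r f) (hy : RegAt n r f D y) :
    ∃ al : Fin r → S.H.ι → W.X → ℂ, Ci n D (pull f S.H) al (f ⁻¹' {y}) := by
  classical
  obtain ⟨h, hh⟩ := S.lb.cover y
  obtain ⟨l, hl⟩ := Function.ne_iff.1 (S.xnz h y hh)
  set c : Fin r → ℂ := fun b => S.x h y (l.succAbove b) / S.x h y l
  have k1 : ∀ a, y ∈ S.H.U a → S.x a y l ≠ 0 ∧ ∀ b, S.x a y (l.succAbove b) / S.x a y l = c b :=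
    fun a ha => by
      have := S.lb.ne_zero a h y ha hh
      rw [S.x_chg ha hh]
      exact ⟨mul_ne_zero this hl, fun b => smul_ratio this _ _ _⟩
  refine ⟨fun b a x => S.x a (f x) (l.succAbove b) - c b * S.x a (f x) l, fun b => isSec_of
    (fun a x ha => hf.hol ((S.xhol ha _).sub ((hol_const _ _).mul (S.xhol ha _)))) fun a a' x ha ha' => ?_,
    fun a x ha => ⟨fun hx b => ?_, fun hx => S.ext ha hh ⟨S.x a (f x) l / S.x h y l, funext fun j => ?_⟩⟩,
    fun a x ha hx ζ hζ => ?_⟩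
  · rw [S.x_chg ha ha']
    change _ * _ - _ * (_ * _) = S.H.g a a' (f x) * _
    ring
  · obtain rfl : f x = y := hx
    rw [← (k1 a ha).2 b, div_mul_cancel₀ _ (k1 a ha).1, sub_self]
  · induction j using l.succAboveCases with
    | x => exact (div_mul_cancel₀ _ hl).symm
    | p b =>
      rw [sub_eq_zero.1 (hx b), Pi.smul_apply, smul_eq_mul]
      simp only [c]
      ring
  obtain rfl : f x = y := hx
  have he' := at_chart (n := r) (f x)
  have h1 := hy x rfl _ he' ζ hζ
  have h2 := S.ind ha (k1 a ha).1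
  have h3 : ∀ b, Hol r (fun p => S.x a p (l.succAbove b) - c b * S.x a p l) (f x) := fun b =>
    (S.xhol ha _).sub ((hol_const _ _).mul (S.xhol ha _))
  refine ⟨Sum.rec (fun l => h1.1 (.inl l)) fun b => hf.hol (h3 b), fun e he =>
    (ind_iff_surj _).2 fun w => ?_⟩
  obtain ⟨u, hu⟩ := (ind_iff_surj _).1 (h2.2 _ he') fun b => (S.x a (f x) l)⁻¹ * w (.inr b)
  obtain ⟨v, hv⟩ := (ind_iff_surj _).1 (h1.2 e he) (Sum.elim (fun l => w (.inl l)) u)
  refine ⟨v, funext (Sum.rec (fun l => congrFun hv (.inl l)) fun b => ?_)⟩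
  have h4 : df f e _ x v = u := funext fun j =>
    (df_apply (hf.at x) he he' v j).trans (congrFun hv (.inr j))
  refine (DFunLike.congr_fun (dd_comp (h3 b) (hf.at x) he he') v).trans ?_
  rw [ContinuousLinearMap.comp_apply, h4, dd_congr (b := fun p => S.x a p l *
    (S.x a p (l.succAbove b) / S.x a p l - c b)) (((S.xhol ha l).ne_near (k1 a ha).1).mono
      fun p hp => by rw [mul_sub, mul_div_cancel₀ _ hp, mul_comm]) he', dd_mul (S.xhol ha l)
      ((h2.1 b).sub (hol_const _ _)) (sub_eq_zero.2 ((k1 a ha).2 b)) he', dd_sub_const,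
    _root_.smul_apply, show dd _ _ _ u = _ from congrFun hu b, smul_eq_mul,
    mul_inv_cancel_left₀ (k1 a ha).1]

theorem py' : PY := by
  refine ⟨py1, fun n W A ⟨ψ, h1, h2⟩ => ⟨ψ, h1, fun a e x he ha => (h2 a e x he ha).posSemidef⟩,
    fun d n F W i A ψ hi ⟨h1, h2⟩ => ?_⟩
  have k := fun j (c : Chart d F.X) x (hc : At c x) hx =>
    Lf.Pl.cmp hi hc (at_chart _) (h1.smooth j _ (i x) (at_chart _) hx)
  have two : (2 : WithTop ℕ∞) ≤ ∞ := by norm_cast
  refine ⟨⟨fun j c x hc hx => (k j c x hc hx).1, fun j j' x => h1.change j j' (i x)⟩,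
    fun j c x hc hx => .of_dotProduct_mulVec_nonneg
      (C2.cHess_isHermitian ((k j c x hc hx).1.of_le two)) fun v => ?_⟩
  have h3 := (h2 j _ _ (at_chart _) hx).dotProduct_mulVec_nonneg
    (star (df i c (chartAt _ (i x)) x (star v)))
  rw [cHess_quad ((h1.smooth j _ _ (at_chart _) hx).of_le two), star_star] at h3
  rwa [cHess_quad ((k j c x hc hx).1.of_le two), (k j c x hc hx).2 two]

end Vale.Agent.P281Z.B3
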