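import Vale.Agent.P281Z.B3.Ind
import Vale.Agent.P281Z.B3.Br
import Vale.Agent.P281Z.B3.Aj
import Vale.Agent.P281Z.B3.Bt
import Vale.Agent.P281Z.B3.Cut
import Vale.Agent.P281Z.B3.Py2
import Vale.Agent.P281Z.Lg.B3v
import Vale.Agent.P281Z.La.Aa

/-!
# P281Z, block B3: extension of logarithmic forms from a regular fibre
-/

namespace Vale.Agent.P281Z.B3

theorem b3r_v (h : Lg.StB3V) : Bs.B3R := b3r_of bt cut aj py' (b3v_of h)

theorem b3r_lad (hL : Lg.StLad) (hH : Lg.StHyp) (hT : Lg.StTrv) (h3 : Lg.StB3) : Bs.B3R :=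
  b3r_v (Lg.stB3V Lg.stAa hL hH hT h3)

end Vale.Agent.P281Z.B3
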