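import Vale.Agent.P281Z.B3.Main
import Vale.Agent.P281Z.Ld.Lad
import Vale.Agent.P281Z.La.Hyp
import Vale.Agent.P281Z.La.Trv
import Vale.Agent.P281Z.Lg.B3
import Vale.Agent.P281Z.Lg.Rs
import Vale.Agent.P281Z.Lg.Gl
import Vale.Agent.P281Z.Lg.Cp
import Vale.Agent.P281Z.Lg.Res
import Vale.Agent.P281Z.Lg.Exl
import Vale.Agent.P281Z.Lg.Lift
import Vale.Agent.P281Z.Ha.Api
import Vale.Agent.P281Z.Ha.Int
import Vale.Agent.P281Z.Ha.Tr
import Vale.Agent.P281Z.Ha.Wcl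
import Vale.Agent.P281Z.Ha.Den
import Vale.Agent.P281Z.Ha.Loc
import Vale.Agent.P281Z.Ha.Rng
import Vale.Agent.P281Z.Ha.Fin
import Vale.Agent.P281Z.Ha.Out

/-!
# P281Z, block B3: the result
-/

namespace Vale.Agent.P281Z.B3

open Ha Lg

theorem haOut : Ha.Out :=
  have I := stInt stApi
  out_of stApi I Ha.stTr (stWcl stApi I Ha.stTr) stDen (stRng stApi I Ha.stLoc stMon)
    (stFin stApi I stMon) (stA2 stApi I Ha.stTr)

theorem lgB3 : StB3 :=
  have G := stGl stApi haOut.int stCp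
  stB3 haOut stRs G (stLift stApi haOut.int G stExl) (stRes' haOut.int stRs stCp)

/-- **B3R** -/
theorem b3r : Bs.B3R := b3r_lad stLad stHyp stTrv lgB3

end Vale.Agent.P281Z.B3
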