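import Vale.Agent.P281Z.Bs.Defs

/-!
# P281Z, block B3: extension of logarithmic forms from complete intersections (statements)
-/

open scoped Manifold ContDiff Topology ComplexOrder
open Set Filter
open Vale.Agent.P272.K Vale.Agent.P285.H281.FD
open Vale.Agent.P277Z.Slc (Ind LEq Snc IsDiv)
open Vale.Agent.P277.HD (pull)

noncomputable section

namespace Vale.Agent.P281Z.B3

section

variable (n : ℕ) {X : Type} [TopologicalSpace X] [ChartedSpace (Cm n) X]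

/-- a metric with semipositive curvature -/
def Smp (A : Bd X) (ψ : A.ι → X → ℝ) : Prop :=
  IsMet n A ψ ∧ ∀ a (e : Chart n X) x, At e x → x ∈ A.U a →
    (cHess (fun z => ψ a (e.symm z)) (e x)).PosSemidef

/-- `K + k A` -/
abbrev KA (A : Bd X) (k : ℕ) : Bd X := (Bd.can n X).mul (A.pow k)

/-- `T` is the set of the common zeros of the sections `al j`, and it is transversal to `D` -/
structure Ci {κ : Type} (D : κ → Set X) (A : Bd X) {r : ℕ} (al : Fin r → A.ι → X → ℂ)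
    (T : Set X) : Prop where
  sec : ∀ j, IsSec n A (al j)
  zero : ∀ a, ∀ x ∈ A.U a, x ∈ T ↔ ∀ j, al j a x = 0
  ind : ∀ a, ∀ x ∈ A.U a, x ∈ T → ∀ ζ : κ → X → ℂ, (∀ l, LEq n (D l) x (ζ l)) →
    Ind n (Sum.elim (fun l : {l // x ∈ D l} => ζ l) fun j => al j a) x

end

/-- **BT**: the theorem of Bertini for a system with a transversal base locus -/
def BT : Prop := ∀ (n r : ℕ) (W : Mf n) (κ : Type) [Fintype κ] (D : κ → Set W.X) (A : Bd W.X)
  (al : Fin (r + 1) → A.ι → W.X → ℂ) (T : Set W.X), IsLB n A → Snc n D → Ci n D A al T →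
  ∃ (c : Fin (r + 1) → ℂ) (Z : Set W.X), c 0 ≠ 0 ∧
    IsDiv n Z A (fun a x => ∑ j, c j * al j a x) ∧ Snc n fun o : Option κ => o.elim Z D

/-- **CUT**: restriction to a member of the system -/
def CUT : Prop := ∀ (d r : ℕ) (W : Mf (d + 1)) (κ : Type) [Fintype κ] (D : κ → Set W.X)
  (A : Bd W.X) (al : Fin (r + 1) → A.ι → W.X → ℂ) (T : Set W.X) (c : Fin (r + 1) → ℂ) (Z : Set W.X)
  (F : Mf d) (i : F.X → W.X), Ci (d + 1) D A al T → c 0 ≠ 0 →
  IsDiv (d + 1) Z A (fun a x => ∑ j, c j * al j a x) →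
  (Snc (d + 1) fun o : Option κ => o.elim Z D) → Emb d (d + 1) i Z → T ⊆ Z ∧
    Ci d (fun l => i ⁻¹' D l) (pull i A) (fun (j : Fin r) a x => al j.succ a (i x)) (i ⁻¹' T)

/-- **AJ**: adjunction -/
def AJ : Prop := ∀ (d : ℕ) (W : Mf (d + 1)) (A : Bd W.X) (σ : A.ι → W.X → ℂ) (Z : Set W.X)
  (F : Mf d) (i : F.X → W.X), IsDiv (d + 1) Z A σ → Emb d (d + 1) i Z →
  LIso d (Bd.can d F.X) (pull i ((Bd.can (d + 1) W.X).mul A))

/-- **PY**: the hyperplanes through a point; the pull back of semipositive metrics -/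
def PY : Prop :=
  (∀ (n r : ℕ) (W : Mf n) (κ : Type) [Fintype κ] (D : κ → Set W.X) (S : PS r) (f : W.X → S.P.X)
    (y : S.P.X), HolM n r f → RegAt n r f D y →
    ∃ al : Fin r → S.H.ι → W.X → ℂ, Ci n D (pull f S.H) al (f ⁻¹' {y})) ∧
  (∀ (n : ℕ) (W : Mf n) (A : Bd W.X), Pos n A → ∃ ψ, Smp n A ψ) ∧
  ∀ (d n : ℕ) (F : Mf d) (W : Mf n) (i : F.X → W.X) (A : Bd W.X) (ψ : A.ι → W.X → ℝ), HolM d n i →
    Smp n A ψ → Smp d (pull i A) fun a x => ψ a (i x)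

/-- **B3V**: extension from one hypersurface -/
def B3V : Prop := ∀ (d k : ℕ) (W : Mf (d + 1)) (κ : Type) [Fintype κ] (D : κ → Set W.X)
  (A : Bd W.X) (ψ : A.ι → W.X → ℝ) (σ : A.ι → W.X → ℂ) (Z : Set W.X) (F : Mf d) (i : F.X → W.X)
  (u : (KA (d + 1) A (k + 2)).ι → F.X → ℂ), W.Kah → Smp (d + 1) A ψ → IsDiv (d + 1) Z A σ →
  (Snc (d + 1) fun o : Option κ => o.elim Z D) → Emb d (d + 1) i Z →
  SecP d (d + 1) i univ (pull i (KA (d + 1) A (k + 2))) D (fun _ => 1) u →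
  ∃ s, SecP (d + 1) (d + 1) id univ (KA (d + 1) A (k + 2)) D (fun _ => 1) s ∧
    ∀ a x, i x ∈ off D → i x ∈ (KA (d + 1) A (k + 2)).U a → s a (i x) = u a x

end Vale.Agent.P281Z.B3
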