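import Vale.Agent.P281Z.B3.Defs
import Vale.Agent.P281Z.Lf.Pull

/-!
# P281Z, block B3: the induction on the codimension
-/

open scoped Manifold ContDiff Topology
open Set Filter
open Vale.Agent.P272.K Vale.Agent.P285.H281.FD
open Vale.Agent.P277Z.Slc (Ind LEq Snc IsDiv isLB_can)
open Vale.Agent.P277.HD (pull)

noncomputable section

namespace Vale.Agent.P281Z.B3

theorem ind_of (bt : BT) (cut : CUT) (aj : AJ) (py : PY) (b3 : B3V) (r : ℕ) :
    ∀ (n : ℕ) (W : Mf n) (κ : Type) [Fintype κ] (D : κ → Set W.X) (A : Bd W.X)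
      (ψ : A.ι → W.X → ℝ) (al : Fin r → A.ι → W.X → ℂ) (T O : Set W.X)
      (s : (KA n A (r + 1)).ι → W.X → ℂ), W.Kah → IsLB n A → Smp n A ψ → Snc n D →
      Ci n D A al T → IsOpen O → T ⊆ O → SecP n n id O (KA n A (r + 1)) D (fun _ => 1) s →
      ∃ s', SecP n n id univ (KA n A (r + 1)) D (fun _ => 1) s' ∧
        ∀ a, ∀ x ∈ off D, x ∈ T → x ∈ (KA n A (r + 1)).U a → s' a x = s a x := by
  induction r with
  | zero =>
    intro n W κ _ D A ψ al T O s _ hA _ _ hC _ hT hs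
    exact ⟨s, hs.res fun x _ => hT ((hA.cover x).elim fun a h => (hC.zero a x h).2 fun j => j.elim0),
      fun _ _ _ _ _ => rfl⟩
  | succ r ih =>
    intro n W κ _ D A ψ al T O s hW hA hψ hD hC hO hT hs
    rcases n with _ | d
    · refine ⟨_, secP_zero, fun a x _ hx h => ?_⟩
      obtain ⟨ζ, h1, -⟩ := hD x
      have := ind_le ((hC.ind a.2 x h.2 hx ζ h1).comp Sum.inr Sum.inr_injective)
      simp at this
    obtain ⟨c, Z, c0, hZ, hS⟩ := bt _ r W κ D A al T hA hD hC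
    obtain ⟨⟨p1, p2⟩, p3⟩ := Lf.pll d W κ D Z hS
    obtain ⟨F, i, hi⟩ := p2.emb p1.isCompact
    obtain ⟨q1, q2, -⟩ := p3 F i hi
    obtain ⟨q3, q4⟩ := cut d r W κ D A al T c Z F i hC c0 hZ hS hi
    have hA' := hi.hol.lb hA
    have l1 : IsLB d (KA d (pull i A) (r + 1)) := lb_mul isLB_can (lb_pow hA' _)
    have l2 : IsLB d (pull i (KA (d + 1) A (r + 2))) := hi.hol.lb (lb_mul isLB_can (lb_pow hA _))
    have l3 := lb_mul (hi.hol.lb (lb_mul isLB_can hA)) (lb_pow hA' (r + 1))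
    obtain ⟨t, ht⟩ : LIso d (KA d (pull i A) (r + 1)) (pull i (KA (d + 1) A (r + 2))) :=
      ((aj d W A _ Z F i hZ hi).mul (.refl (lb_pow hA' _))).trans l1 l3 l2 (LIso.symm
        (liso_of_map' l3 (fun a => (a, a.2)) (fun _ _ h => ⟨h, h.2⟩) fun a b x _ _ => by
          change _ * A.g a.2 b.2 (i x) * A.g a.2 b.2 (i x) ^ (r + 1) = _ * A.g a.2 b.2 (i x) ^ (r + 2)
          rw [mul_assoc, ← pow_succ']))
    have hT' : Trv d (d + 1) i D := fun x => (hD (i x)).elim fun ζ h =>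
      ⟨ζ, h.1, fun l => q2 x l _ (h.1 l)⟩
    have hG := (Hyp.of_snc hD).isOpen.preimage hi.hol.cont
    have s1 : SecP d (d + 1) i (i ⁻¹' O) _ D _ _ := hs.comp hi.hol
    obtain ⟨s', k1, k2⟩ := ih d F κ _ _ _ _ _ _ _ (hi.kah hW) hA' (py.2.2 _ _ F W i A ψ hi.hol hψ) q1
      q4 (hO.preimage hi.hol.cont) (preimage_mono hT) ((secP_iff_pull hi.hol.cont hT').1
        (ht.secP l1 l2 (hO.preimage hi.hol.cont) hG s1))
    have k3 := (secP_iff_pull hi.hol.cont hT').2 k1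
    obtain ⟨s'', k4, k5⟩ := b3 d r W κ D A ψ _ Z F i _ hW hψ hZ hS hi
      (ht.symm.secP l2 l1 isOpen_univ hG k3)
    refine ⟨s'', k4, fun a x h1 h2 h3 => ?_⟩
    obtain ⟨z, rfl⟩ := hi.ex (q3 h2)
    obtain ⟨b, hb⟩ := l1.cover z
    rw [k5 a z h1 h3, LRel.map_eq l2 l1 ht.symm (fun b b' => (k3.chg b b' z trivial · · h1)) h3 hb,
      k2 b z h1 h2 hb, LRel.map_eq l1 l2 ht (fun b b' => (s1.chg b b' z (hT h2) · · h1)) hb h3,
      inv_mul_cancel_left₀ (ht.ne _ _ _ hb h3)]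

/-- **B3R** -/
theorem b3r_of (bt : BT) (cut : CUT) (aj : AJ) (py : PY) (b3 : B3V) : Bs.B3R := by
  intro n r W κ _ D S f y O s hW hD hf hy hO hT hs
  obtain ⟨al, h1⟩ := py.1 n r W κ D S f y hf hy
  obtain ⟨ψ, h2⟩ := py.2.1 r S.P S.H S.pos
  exact ind_of bt cut aj py b3 r n W κ D (pull f S.H) _ al _ O s hW (hf.lb S.lb)
    (py.2.2 n r W S.P f S.H ψ hf h2) hD h1 hO hT hs

end Vale.Agent.P281Z.B3
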