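import Vale.Agent.P281Z.B3.Defs
import Vale.Agent.P281Z.Lf.Pull
import Vale.Agent.P281Z.Pb.Api
import Vale.Agent.P281Z.Ri.Tools

/-!
# P281Z, block B3: the hyperplanes through a point, semipositive metrics
-/

open scoped Manifold ContDiff Topology ComplexOrder
open Set Filter
open Vale.Agent.P272.K Vale.Agent.P285.H281.FD
open Vale.Agent.P277Z (Hol at_chart hol_const)
open Vale.Agent.P277Z.Slc (Ind dd dd_mul dd_congr dd_sub_const)
open Vale.Agent.P284Z (cHess_psd_iff)

noncomputable section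

namespace Vale.Agent.P281Z.B3

namespace PyH

variable {r : ℕ} (S : PS r) {y : S.P.X} {l : Fin (r + 1)} {c : Fin r → ℂ} {a : S.H.ι}

theorem ind (ha : y ∈ S.H.U a) (hl : S.x a y l ≠ 0)
    (hc : ∀ b, S.x a y (l.succAbove b) / S.x a y l = c b) :
    Ind r (fun b p => S.x a p (l.succAbove b) - c b * S.x a p l) y := by
  have h := S.ind ha hl
  refine ⟨fun b => (S.xhol ha _).sub ((hol_const _ _).mul (S.xhol ha _)), fun e he =>
    Ri.Tl.li_congr ((h.2 e he).units_smul fun _ => Units.mk0 _ hl) fun b => ?_⟩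
  have k : ∀ᶠ p in 𝓝 y, S.x a p (l.succAbove b) - c b * S.x a p l =
      S.x a p l * (S.x a p (l.succAbove b) / S.x a p l - c b) :=
    ((S.xhol ha l).cont.eventually_ne hl).mono fun p hp => by field_simp
  rw [dd_congr k he, dd_mul (S.xhol ha l) ((h.1 b).sub (hol_const _ _)) (sub_eq_zero.2 (hc b)) he,
    dd_sub_const]
  rfl

end PyH

theorem py : PY := by
  refine ⟨fun n r W κ _ D S f y hf hr => ?_, fun n W A ⟨ψ, h1, h2⟩ =>
    ⟨ψ, h1, fun a e x he ha => (h2 a e x he ha).posSemidef⟩, fun d n F W i A ψ hi ⟨h1, h2⟩ => ?_⟩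
  · obtain ⟨v, hv, rfl⟩ := S.surj y
    obtain ⟨l, hl⟩ : ∃ l, v l ≠ 0 := Function.ne_iff.1 hv
    refine ⟨fun b a x => S.x a (f x) (l.succAbove b) - v (l.succAbove b) / v l * S.x a (f x) l,
      fun b => isSec_of (fun a x ha => hf.hol ((S.xhol ha _).sub ((hol_const _ _).mul
        (S.xhol ha _)))) fun a a' x ha ha' => ?_, fun a x ha => ⟨fun h b => ?_, fun h => ?_⟩,
      fun a x ha h ζ hζ => ?_⟩
    · rw [S.x_chg ha ha']
      change _ * _ - _ * (_ * _) = S.H.g a a' (f x) * _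
      ring
    · obtain ⟨c, -, hc⟩ := S.x_pt' hv (show S.pt v ∈ S.H.U a from (show f x = _ from h) ▸ ha)
      rw [show f x = _ from h, hc, Pi.smul_apply, Pi.smul_apply, smul_eq_mul, smul_eq_mul]
      field_simp
      ring
    · refine (S.pt_x' ha).symm.trans ((S.pt_eq_iff (S.xnz a _ ha) hv).2
        ⟨S.x a (f x) l / v l, funext (l.succAboveCases (div_mul_cancel₀ _ hl).symm fun b => ?_)⟩)
      rw [sub_eq_zero.1 (h b), Pi.smul_apply, smul_eq_mul]
      ring
    · have h' : f x = S.pt v := h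
      have k : S.pt v ∈ S.H.U a := h' ▸ ha
      exact Ri.indc n r W S.P f _ _ x _ _ hf (at_chart _) (h' ▸ PyH.ind S k
        ((S.x_ne_iff hv k l).2 hl) fun b => S.ratio hv k _ _) (hr x h _ (h' ▸ at_chart _) ζ hζ)
  · have k := fun j (c : Chart d F.X) x (hc : At c x) hx =>
      Lf.Pl.cmp hi hc (at_chart _) (h1.smooth j _ (i x) (at_chart _) hx)
    have two : (2 : WithTop ℕ∞) ≤ ∞ := by norm_cast
    refine ⟨⟨fun j c x hc hx => (k j c x hc hx).1, fun j j' x => h1.change j j' (i x)⟩,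
      fun j c x hc hx => (cHess_psd_iff ((k j c x hc hx).1.of_le two)).2 fun w => ?_⟩
    rw [(k j c x hc hx).2 two]
    exact (cHess_psd_iff ((h1.smooth j _ _ (at_chart _) hx).of_le two)).1
      (h2 j _ _ (at_chart _) hx) _

end Vale.Agent.P281Z.B3
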